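import Vale.Agent.P251EJ.DefsS

/-!
# P251EJ, row QUO: the cells of the orbit space
-/

set_option linter.all false

open Set

noncomputable section

namespace Vale.Agent.P251EJ44

open Vale.Agent.P251EJ

variable {G Y Z : Type} [Group G] [TopologicalSpace Y] [TopologicalSpace Z] (C : GCells G Y Z)

theorem act_one (y : Y) : C.act 1 y = y := by
  obtain ⟨g, hg⟩ := (C.q_eq y y).1 rfl
  calc C.act 1 y = C.act 1 (C.act g y) := by rw [← hg]
    _ = C.act g y := by rw [C.act_mul, mul_one]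
    _ = y := hg.symm

theorem q_act (g : G) (y : Y) : C.q (C.act g y) = C.q y := ((C.q_eq y _).2 ⟨g, rfl⟩).symm

theorem q_mem (d : ℕ) (y : Y) : C.q y ∈ C.q '' C.sk d ↔ y ∈ C.sk d := by
  refine ⟨fun ⟨y', h, e⟩ => ?_, fun h => ⟨y, h, rfl⟩⟩
  obtain ⟨g, rfl⟩ := (C.q_eq y' y).1 e
  exact (C.act_sk d g y').2 h

/-- the orbit relation on the cells -/
def rel (hB : BodyS) (d : ℕ) : Setoid (C.P d) where
  r x y := ∃ g, y = C.pact d g x
  iseqv := by
    obtain ⟨s, hs⟩ := (hB d).2.2.1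
    refine ⟨fun x => ⟨1, (C.inj d _ _ s hs s hs ?_).1⟩, ?_, ?_⟩
    · rw [C.c_act, act_one]
    · rintro x _ ⟨g, rfl⟩
      refine ⟨g⁻¹, (C.inj d _ _ s hs s hs ?_).1⟩
      rw [C.c_act, C.c_act, C.act_mul, mul_inv_cancel, act_one]
    · rintro x _ _ ⟨g, rfl⟩ ⟨h, rfl⟩
      refine ⟨g * h, (C.inj d _ _ s hs s hs ?_).1⟩
      rw [C.c_act, C.c_act, C.c_act, C.act_mul]

/-- the characteristic maps of the orbit space -/
def chi (hB : BodyS) (d : ℕ) : Quotient (rel C hB d) → (Fin d → ℝ) → Z :=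
  Quotient.lift (fun x s => C.q (C.c d x s)) (by
    rintro x _ ⟨g, rfl⟩
    funext s
    rw [C.c_act, q_act])

/-- the cells of the orbit space -/
def cells (hB : BodyS) : Cells Z where
  N := C.N
  P d := Quotient (rel C hB d)
  fin d := Fintype.ofFinite _
  sk d := C.q '' C.sk d
  sk_zero := by rw [C.sk_zero, image_empty]
  sk_top := by rw [C.sk_top, image_univ, C.q_surj.range_eq]
  mono d := image_mono (C.mono d)
  c := chi C hB
  cont d x := by
    obtain ⟨x, rfl⟩ := Quotient.exists_rep x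
    exact C.q.continuous.comp_continuousOn (C.cont d x)
  bd d x := by
    obtain ⟨x, rfl⟩ := Quotient.exists_rep x
    exact fun s hs => ⟨_, C.bd d x hs, rfl⟩
  inj d x y s hs t ht h := by
    obtain ⟨x, rfl⟩ := Quotient.exists_rep x
    obtain ⟨y, rfl⟩ := Quotient.exists_rep y
    obtain ⟨g, hg⟩ := (C.q_eq _ _).1 (show C.q (C.c d x s) = C.q (C.c d y t) from h)
    rw [← C.c_act] at hg
    obtain ⟨h1, h2⟩ := C.inj d _ _ t ht s hs hg
    exact ⟨Quotient.sound ⟨g, h1⟩, h2.symm⟩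
  cov d := by
    ext z
    obtain ⟨y, rfl⟩ := C.q_surj z
    rw [mem_diff, q_mem, q_mem, ← mem_diff, C.cov, mem_iUnion, mem_iUnion]
    constructor
    · rintro ⟨x, s, hs, rfl⟩
      exact ⟨Quotient.mk _ x, s, hs, rfl⟩
    · rintro ⟨x, s, hs, h⟩
      obtain ⟨x, rfl⟩ := Quotient.exists_rep x
      obtain ⟨g, hg⟩ := (C.q_eq _ _).1 (show C.q (C.c d x s) = C.q y from h)
      exact ⟨C.pact d g x, s, hs, by rw [C.c_act, hg]⟩

theorem quoS : QuoS := fun hB G Y Z _ _ _ C =>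
  ⟨cells C hB, fun d => Quotient.mk _, rfl, q_mem C, fun _ _ _ => rfl,
    fun d => Quotient.mk_surjective, fun d x y h => Quotient.exact h⟩

end Vale.Agent.P251EJ44
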